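import Vale.Agent.Lib.P194.Special

/-!
# Kaplansky's direct finiteness conjecture is equivalent to its stably finite form over prime fields

For a prime `p`, the following are equivalent: `F_p[G]` is directly finite for every group `G`;
`K[G]` is stably finite for every field `K` of characteristic `p` and every group `G`.
-/

namespace Vale.Agent.Results.P194.A_prime_fields

open MonoidAlgebra

universe u v

/-- For a prime `p`: `F_p[G]` is directly finite for all groups `G` if and only if `K[G]` is stably
finite for all fields `K` of characteristic `p` and all groups `G`. -/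
theorem result (p : ℕ) [Fact p.Prime] :
    (∀ (G : Type u) [Group G], IsDedekindFiniteMonoid (MonoidAlgebra (ZMod p) G)) ↔
      ∀ (K : Type v) [Field K] [CharP K p] (G : Type u) [Group G],
        IsStablyFiniteRing (MonoidAlgebra K G) := by
  constructor
  · intro h K _ _ G _
    let _ : Algebra (ZMod p) K := ZMod.algebra K p
    exact Vale.Agent.Lib.P194.stablyFinite_specialize (F := ZMod p) G fun L _ _ _ =>
      Vale.Agent.Lib.P194.stablyFinite_finite_ext (ZMod p) L G
        (Vale.Agent.Lib.P194.stablyFinite_of_df h G)
  · intro h G _
    let e : ZMod p →+* ULift.{v} (ZMod p) := (ULift.ringEquiv.{0, v} (R := ZMod p)).symm.toRingHom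
    have he : Function.Injective e := (ULift.ringEquiv.{0, v} (R := ZMod p)).symm.injective
    have hc : CharP (ULift.{v} (ZMod p)) p :=
      charP_of_injective_ringHom he p
    have hS : IsStablyFiniteRing (MonoidAlgebra (ULift.{v} (ZMod p)) G) :=
      h (ULift.{v} (ZMod p)) G
    have hD : IsDedekindFiniteMonoid (MonoidAlgebra (ULift.{v} (ZMod p)) G) := inferInstance
    refine IsDedekindFiniteMonoid.of_injective (mapRingHom G e) ?_
    intro x y hxy
    ext g
    have := congrArg (fun z => z.coeff g) hxy
    simp only [coeff_mapRingHom] at this
    exact he this

end Vale.Agent.Results.P194.A_prime_fields
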